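import Vale.Agent.P290.Bdl.B3

/-! A twist gives a transfer, with corresponding points. -/

open Set Filter Metric
open scoped Manifold ContDiff Topology

namespace Vale.Agent.P290.H518

open Vale.Agent.P290

/-- A twist gives a transfer; the isomorphisms `h a` of the twist occur in the transfer with
parameter `0`. -/
theorem exists_transfer' {X Y C : Type} [TopologicalSpace X] [ChartedSpace C2 X]
    [TopologicalSpace Y] [ChartedSpace C2 Y] [TopologicalSpace C] [ChartedSpace ℂ C]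
    [T2Space X] [CompactSpace X] [IsManifold 𝓘(ℂ, C2) 1 X] [IsManifold 𝓘(ℂ, C2) 1 Y]
    [T2Space C] [IsManifold 𝓘(ℂ) 1 C] {vol : VolForm X} {π : X → C} {ρ : Y → C}
    (hπ : MDifferentiable 𝓘(ℂ, C2) 𝓘(ℂ) π) (_hρ : MDifferentiable 𝓘(ℂ, C2) 𝓘(ℂ) ρ)
    (T : Twist vol π ρ) : ∃ S : Transfer π ρ, ∀ a x, π x ∈ T.O a →
      ∃ b, π x ∈ S.O b ∧ S.ψ b x 0 = T.h a x := by
  have hlc : LocallyCompactSpace C := ChartedSpace.locallyCompactSpace ℂ C
  have hKex : ∀ c : C, ∃ K : Set C, IsCompact K ∧ c ∈ interior K ∧ K ⊆ (chartAt ℂ c).source :=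
    fun c => exists_compact_subset (chartAt ℂ c).open_source (mem_chart_source ℂ c)
  choose K hK hcK hKt using hKex
  choose φ hφ using fun c : C => exists_ham_globF vol hπ (chart_mem_atlas ℂ c) (hK c) (hKt c)
  have hpi : ∀ (a : C) x (w : ℂ), x ∈ π ⁻¹' interior (K a) → π (φ a x w) = π x :=
    fun a x w hx => (hφ a).pi_eq vol hπ (chart_mem_atlas ℂ a) hx w
  have hin : ∀ (a q : C), q ∈ interior (K a) → q ∈ (chartAt ℂ a).source :=
    fun a q hq => hKt a (interior_subset hq)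
  refine ⟨{
    A := C × T.A
    O := fun a => interior (K a.1) ∩ T.O a.2
    isOpen_O := fun a => isOpen_interior.inter (T.isOpen a.2)
    cover := ?_
    γ := fun a b => dch b.1 (chartAt ℂ a.1)
    σ := fun a b => dch b.1 (T.S a.2 b.2)
    γ_hol := ?_
    σ_hol := ?_
    γ_ne := ?_
    γ_coc := ?_
    σ_coc := ?_
    ψ := fun a x w => T.h a.2 (φ a.1 x w)
    ψ' := fun a y w => φ a.1 (T.g a.2 y) (-w)
    ψ_base := ?_
    ψ'_base := ?_
    left_inv := ?_
    right_inv := ?_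
    ψ_hol := ?_
    ψ'_hol := ?_
    ψ_trans := ?_ }, ?_⟩
  · intro q
    obtain ⟨b, hb⟩ := T.cover q
    exact ⟨(q, b), hcK q, hb⟩
  · intro a b q ha hb
    exact dch_mdiff (chartAt ℂ a.1).open_source (fun p hp => mdiff_chart hp) (hin _ _ ha.1)
      (hin _ _ hb.1)
  · intro a b q ha hb
    exact dch_mdiff ((T.isOpen a.2).inter (T.isOpen b.2))
      (fun p hp => T.S_hol a.2 b.2 p hp.1 hp.2) ⟨ha.2, hb.2⟩ (hin _ _ hb.1)
  · intro a b q ha hb h0
    have h1 := dch_chain (S := chartAt ℂ a.1) (a := b.1) (b := a.1) (q := q) (hin _ _ hb.1)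
      (hin _ _ ha.1) (mdiff_chart (hin _ _ ha.1))
    rw [dch_self (hin _ _ ha.1), h0, mul_zero] at h1
    exact one_ne_zero h1
  · intro a b c q ha hb hc
    exact dch_chain (S := chartAt ℂ a.1) (a := b.1) (b := c.1) (q := q) (hin _ _ hb.1)
      (hin _ _ hc.1) (mdiff_chart (hin _ _ ha.1))
  · intro a b c q ha hb hc
    have hq : q ∈ (chartAt ℂ q).source := mem_chart_source ℂ q
    have e1 := dch_chain (S := T.S a.2 c.2) (a := q) (b := c.1) (q := q) hq (hin _ _ hc.1)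
      (T.S_hol a.2 c.2 q ha.2 hc.2)
    have e2 := dch_chain (S := T.S a.2 b.2) (a := q) (b := b.1) (q := q) hq (hin _ _ hb.1)
      (T.S_hol a.2 b.2 q ha.2 hb.2)
    have e3 := dch_chain (S := T.S b.2 c.2) (a := q) (b := c.1) (q := q) hq (hin _ _ hc.1)
      (T.S_hol b.2 c.2 q hb.2 hc.2)
    have e4 := dch_chain (S := chartAt ℂ q) (a := b.1) (b := c.1) (q := q) (hin _ _ hb.1)
      (hin _ _ hc.1) (mdiff_chart hq)
    have e5 : dch q (T.S a.2 c.2) q = dch q (T.S a.2 b.2) q + dch q (T.S b.2 c.2) q :=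
      T.S_coc a.2 b.2 c.2 q ha.2 hb.2 hc.2
    rw [e1, e2, e3, e5, e4]
    ring
  · intro a x w hx
    have h1 : π (φ a.1 x w) = π x := hpi a.1 x w hx.1
    rw [T.h_base a.2 _ (by rw [h1]; exact hx.2), h1]
  · intro a y w hy
    have h1 : π (T.g a.2 y) = ρ y := T.g_base a.2 y hy.2
    rw [hpi a.1 _ _ (by rw [mem_preimage, h1]; exact hy.1), h1]
  · intro a x w hx
    have h1 : π (φ a.1 x w) = π x := hpi a.1 x w hx.1
    rw [T.gh a.2 _ (by rw [h1]; exact hx.2), (hφ a.1).add x hx.1, add_neg_cancel,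
      (hφ a.1).zero x hx.1]
  · intro a y w hy
    have h1 : π (T.g a.2 y) = ρ y := T.g_base a.2 y hy.2
    have h2 : T.g a.2 y ∈ π ⁻¹' interior (K a.1) := by rw [mem_preimage, h1]; exact hy.1
    rw [(hφ a.1).add _ h2, neg_add_cancel, (hφ a.1).zero _ h2, T.hg a.2 y hy.2]
  · intro a V _ _ F w z hF hw hFz
    have h1 := (hφ a.1).hol V F w z hF hw hFz.1
    have h2 : π (φ a.1 (F z) (w z)) = π (F z) := hpi a.1 _ _ hFz.1
    exact (T.h_hol a.2 _ (by rw [h2]; exact hFz.2)).comp z h1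
  · intro a V _ _ G w z hG hw hGz
    have h1 : π (T.g a.2 (G z)) = ρ (G z) := T.g_base a.2 _ hGz.2
    have h2 : MDifferentiableAt 𝓘(ℂ, V) 𝓘(ℂ, C2) (fun z => T.g a.2 (G z)) z :=
      (T.g_hol a.2 _ hGz.2).comp z hG
    exact (hφ a.1).hol V (fun z => T.g a.2 (G z)) (fun z => -w z) z h2 hw.neg
      (by rw [mem_preimage, h1]; exact hGz.1)
  · intro a b x w ha hb
    have h1 : π (φ a.1 x w) = π x := hpi a.1 x w ha.1
    obtain ⟨c, hc, hc0, hc1⟩ := T.trans a.2 b.2 (φ a.1 x w) (by rw [h1]; exact ha.2)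
      (by rw [h1]; exact hb.2)
    have hx₁ : φ a.1 x w ∈ π ⁻¹' interior (K b.1) := by rw [mem_preimage, h1]; exact hb.1
    have h2 := hc.eq_flow vol hπ ((T.isOpen a.2).inter (T.isOpen b.2))
      (fun p hp => T.S_hol a.2 b.2 p hp.1 hp.2) (hφ b.1) hx₁ (by rw [h1]; exact ⟨ha.2, hb.2⟩) hc0
    rw [h1] at h2
    have h3 : φ a.1 x w = φ b.1 x (dch b.1 (chartAt ℂ a.1) (π x) * w) :=
      (hφ a.1).trans_chart vol hπ (hφ b.1) ha.1 hb.1 w
    rw [← hc1, h2, h3, (hφ b.1).add x hb.1]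
  · intro a x hx
    refine ⟨(π x, a), ⟨hcK _, hx⟩, ?_⟩
    change T.h a (φ (π x) x 0) = T.h a x
    rw [(hφ (π x)).zero x (hcK _)]

end Vale.Agent.P290.H518
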